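import Mathlib.NumberTheory.LegendreSymbol.Basic
import Mathlib.Analysis.SpecialFunctions.Pow.Asymptotics
import Mathlib.Analysis.SpecialFunctions.Sqrt
import Mathlib.Analysis.PSeries
import Mathlib.Analysis.Complex.ExponentialBounds
import Vale.Agent.P016Z.Iface

/-!
P016: from the three counting statements to primitive roots.
-/

open Finset Filter Topology

namespace Vale.Agent.P016Z

namespace Art

theorem tendsto_quad (A : ℝ) {δ : ℝ} (hδ : 0 < δ) :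
    Tendsto (fun s : ℝ => Real.exp (A * s - δ * s ^ 2)) atTop (𝓝 0) := by
  refine Real.tendsto_exp_atBot.comp ?_
  have h : Tendsto (fun s : ℝ => s * (A - δ * s)) atTop atBot :=
    tendsto_id.atTop_mul_atBot₀ (tendsto_atBot_add_const_left _ A
      (tendsto_neg_atTop_atBot.comp (tendsto_id.const_mul_atTop hδ)))
  exact h.congr fun s => by ring

theorem tendsto_logN : Tendsto (fun X : ℕ => Real.log X) atTop atTop :=
  Real.tendsto_log_atTop.comp tendsto_natCast_atTop_atTop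

/-- the first error term -/
theorem ev1 (C : ℝ) (k : ℕ) {ε : ℝ} (hε : 0 < ε) : ∀ᶠ X : ℕ in atTop,
    C * (Real.log X ^ k * Real.exp (-Real.log (Real.log X) ^ 2)) ≤ ε := by
  have h := ((tendsto_quad k one_pos).comp (Real.tendsto_log_atTop.comp tendsto_logN)).const_mul C
  rw [mul_zero] at h
  filter_upwards [h.eventually (ge_mem_nhds hε), tendsto_logN.eventually_gt_atTop 0] with X h1 h2
  refine le_of_eq_of_le ?_ h1
  simp only [Function.comp]
  rw [one_mul, sub_eq_add_neg, Real.exp_add, Real.exp_nat_mul, Real.exp_log h2]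

/-- the other error terms -/
theorem ev2 (C : ℝ) (k : ℕ) {δ ε : ℝ} (hδ : 0 < δ) (hε : 0 < ε) :
    ∀ᶠ X : ℕ in atTop, C * (Real.log X ^ k * (X : ℝ) ^ (-δ)) ≤ ε := by
  have h := ((tendsto_rpow_mul_exp_neg_mul_atTop_nhds_zero k δ hδ).comp tendsto_logN).const_mul C
  rw [mul_zero] at h
  filter_upwards [h.eventually (ge_mem_nhds hε), eventually_gt_atTop 0] with X h1 h3
  refine le_of_eq_of_le ?_ h1
  have hX : (0 : ℝ) < X := by exact_mod_cast h3
  simp only [Function.comp]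
  rw [Real.rpow_natCast, Real.rpow_def_of_pos hX, mul_comm (Real.log X) (-δ)]

theorem card_primeFactors_le {n k : ℕ} (hn : n ≠ 0) (h : n ≤ 2 ^ k) : n.primeFactors.card ≤ k := by
  have h1 : 2 ^ n.primeFactors.card ≤ ∏ p ∈ n.primeFactors, p :=
    Finset.pow_card_le_prod _ _ _ fun p hp => (Nat.prime_of_mem_primeFactors hp).two_le
  have h2 := Nat.le_of_dvd (Nat.pos_of_ne_zero hn) (Nat.prod_primeFactors_dvd n)
  exact (Nat.pow_le_pow_iff_right (by norm_num)).1 (h1.trans (h2.trans h))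

theorem pow_sub_one_ne {a : ℤ} (ha : 2 ≤ |a|) {k : ℕ} (hk : k ≠ 0) : (a ^ k - 1).natAbs ≠ 0 := by
  rw [Int.natAbs_ne_zero, sub_ne_zero]
  intro h
  have h1 : |a| ^ k = 1 := by rw [← abs_pow, h, abs_one]
  have h2 : |a| ≤ |a| ^ k := le_self_pow₀ (by omega) hk
  omega

theorem pow_sub_one_le (a : ℤ) {k : ℕ} (hk : k ≠ 0) :
    (a ^ k - 1).natAbs ≤ 2 ^ (a.natAbs * k) := by
  have h1 : (a ^ k - 1).natAbs ≤ a.natAbs ^ k + 1 := by
    have := Int.natAbs_sub_le (a ^ k) 1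
    rwa [Int.natAbs_pow, Int.natAbs_one] at this
  have h2 : a.natAbs ^ k < (a.natAbs + 1) ^ k := Nat.pow_lt_pow_left (Nat.lt_succ_self _) hk
  have h3 : (a.natAbs + 1) ^ k ≤ (2 ^ a.natAbs) ^ k :=
    Nat.pow_le_pow_left Nat.lt_two_pow_self k
  rw [pow_mul]
  omega

/-- the primes which divide some `a ^ k - 1` with `1 ≤ k ≤ K` -/
def smallOrd (a : ℤ) (K : ℕ) : Finset ℕ :=
  (Icc 1 K).biUnion fun k => (a ^ k - 1).natAbs.primeFactors

theorem card_smallOrd {a : ℤ} (ha : 2 ≤ |a|) (K : ℕ) : (smallOrd a K).card ≤ K * (a.natAbs * K) := by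
  refine card_biUnion_le.trans ?_
  refine (Finset.sum_le_card_nsmul _ _ (a.natAbs * K) fun k hk => ?_).trans (by simp)
  rw [mem_Icc] at hk
  exact (card_primeFactors_le (pow_sub_one_ne ha (by omega)) (pow_sub_one_le a (by omega))).trans
    (Nat.mul_le_mul_left _ hk.2)

/-- the window of the small primes -/
noncomputable def win (η : ℝ) (X : ℕ) : Finset ℕ :=
  (Icc ⌈Real.exp (Real.log (Real.log X) ^ 2)⌉₊ ⌊(X : ℝ) ^ η⌋₊).filter Nat.Prime

theorem sum_inv_sq_win {L : ℝ} (hL : 1 < L) (M : ℕ) :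
    ∑ l ∈ Icc ⌈L⌉₊ M, 1 / (l : ℝ) ^ 2 ≤ 2 / L := by
  have h1 : 2 ≤ ⌈L⌉₊ := by
    have : 1 < ⌈L⌉₊ := Nat.lt_ceil.2 (by simpa using hL)
    omega
  have h2 : Icc ⌈L⌉₊ M = Ioo (⌈L⌉₊ - 1) (M + 1) := by
    ext l; simp only [mem_Icc, mem_Ioo]; omega
  have h3 := sum_Ioo_inv_sq_le (α := ℝ) (⌈L⌉₊ - 1) (M + 1)
  have h4 : ((⌈L⌉₊ - 1 : ℕ) : ℝ) + 1 = ⌈L⌉₊ := by
    rw [Nat.cast_sub (by omega)]; simp
  rw [h4] at h3
  rw [h2]
  simp only [one_div]
  exact h3.trans (div_le_div_of_nonneg_left (by norm_num) (by linarith) (Nat.le_ceil L))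

open Classical in
/-- a nice prime is good, or bad for a prime of the window, or `a` has small order -/
theorem nice_cases {a : ℤ} (ha : 2 ≤ |a|) {c u v X p : ℕ} {η : ℝ} (hc : c = 2 ∨ c = 4)
    (hcls : ∀ w : ℕ, w % v = u % v → (c * w + 1).Prime →
      ¬ ((c * w + 1 : ℕ) : ℤ) ∣ a ∧ ¬ IsSquare (a : ZMod (c * w + 1)))
    (h : Nice c u v η X p) :
    (p.Prime ∧ ¬ (p : ℤ) ∣ a ∧ orderOf (a : ZMod p) = p - 1) ∨ (∃ l ∈ win η X, Bad a l p) ∨
      p ∈ smallOrd a ⌊4 * (X : ℝ) ^ (1 / 10 : ℝ)⌋₊ := by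
  obtain ⟨hp, r, Q, e, hQ, hr, hw, hl⟩ := h
  have e' : p = c * (r * Q) + 1 := by rw [e, mul_assoc]
  obtain ⟨h1, h2⟩ : ¬ (p : ℤ) ∣ a ∧ ¬ IsSquare (a : ZMod p) := by
    subst e'
    exact hcls _ hw hp
  have := Fact.mk hp
  have ha0 : (a : ZMod p) ≠ 0 := fun h => h1 ((ZMod.intCast_zmod_eq_zero_iff_dvd a p).1 h)
  have hp1 : p - 1 = c * r * Q := by omega
  have hp2 := hp.two_le
  by_cases ho : orderOf (a : ZMod p) = p - 1
  · exact Or.inl ⟨hp, h1, ho⟩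
  right
  obtain ⟨l, hl1, hl2, hl3⟩ : ∃ l : ℕ, l.Prime ∧ l ∣ p - 1 ∧ (a : ZMod p) ^ ((p - 1) / l) = 1 := by
    by_contra hcon
    push Not at hcon
    exact ho (orderOf_eq_of_pow_and_pow_div_prime (by omega) (ZMod.pow_card_sub_one_eq_one ha0)
      hcon)
  have hr0 : r ≠ 0 := by
    rintro rfl
    simp at hp1; omega
  have hl4 := hl2
  rw [hp1] at hl4
  rcases (Nat.Prime.dvd_mul hl1).1 hl4 with h | h
  · rcases (Nat.Prime.dvd_mul hl1).1 h with h | h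
    · exfalso
      have hl5 : l = 2 := by
        refine (Nat.prime_dvd_prime_iff_eq hl1 Nat.prime_two).1 ?_
        rcases hc with rfl | rfl
        · exact h
        · exact hl1.dvd_of_dvd_pow (n := 2) h
      subst hl5
      apply h2
      rw [ZMod.euler_criterion p ha0, ← hl3]
      congr 1
      omega
    · left
      obtain ⟨b1, b2⟩ := hl l hl1 h
      have hl0 : (0 : ℝ) < l := by exact_mod_cast hl1.pos
      refine ⟨l, mem_filter.2 ⟨mem_Icc.2 ⟨Nat.ceil_le.2 ?_, Nat.le_floor ?_⟩, hl1⟩, hp, hl2, h1, hl3⟩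
      · exact (Real.le_log_iff_exp_le hl0).1 b1
      · exact b2
  · right
    obtain rfl := (Nat.prime_dvd_prime_iff_eq hl1 hQ).1 h
    rw [hp1, Nat.mul_div_cancel _ hl1.pos] at hl3
    have hcr : c * r ≠ 0 := by rcases hc with rfl | rfl <;> omega
    refine mem_biUnion.2 ⟨c * r, mem_Icc.2 ⟨by omega, Nat.le_floor ?_⟩, ?_⟩
    · have hc4 : (c : ℝ) ≤ 4 := by rcases hc with rfl | rfl <;> norm_num
      push_cast
      exact mul_le_mul hc4 hr (Nat.cast_nonneg r) (by norm_num)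
    · refine Nat.mem_primeFactors.2 ⟨hp, ?_, pow_sub_one_ne ha hcr⟩
      rw [← Int.natCast_dvd, ← ZMod.intCast_zmod_eq_zero_iff_dvd]
      push_cast
      rw [hl3, sub_self]

open Classical in
/-- the dyadic bounds, summed -/
theorem bad_range {a : ℤ} {l : ℕ} (hl : l.Prime) {C δ : ℝ} (hC : 0 ≤ C) (hδ : δ ≤ 1)
    (h : ∀ X : ℕ, 2 ≤ X → (((Ioc X (2 * X)).filter (Bad a l)).card : ℝ) ≤
      C * (X * Real.log X / (l : ℝ) ^ 2 + (l : ℝ) ^ 2 * (X : ℝ) ^ (1 - δ)))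
    {N : ℕ} (hN : 2 ≤ N) : (((range (N + 1)).filter (Bad a l)).card : ℝ) ≤
      2 * Real.log N * (C * (N * Real.log N / (l : ℝ) ^ 2 + (l : ℝ) ^ 2 * (N : ℝ) ^ (1 - δ))) := by
  have hsub : (range (N + 1)).filter (Bad a l) ⊆
      (Icc 1 (Nat.log 2 N)).biUnion fun j => (Ioc (2 ^ j) (2 * 2 ^ j)).filter (Bad a l) := by
    intro p hp
    obtain ⟨hp1, hp2⟩ := mem_filter.1 hp
    have h1 : p ≤ N := by have := mem_range.1 hp1; omega
    have h2 := hp2.1.two_le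
    have h3 : 2 ≤ p - 1 := hl.two_le.trans (Nat.le_of_dvd (by omega) hp2.2.1)
    have h4 := Nat.pow_log_le_self 2 (x := p - 1) (by omega)
    have h5 := Nat.lt_pow_succ_log_self (b := 2) (by norm_num) (p - 1)
    rw [pow_succ'] at h5
    refine mem_biUnion.2 ⟨Nat.log 2 (p - 1), mem_Icc.2 ⟨Nat.log_pos (by norm_num) h3,
      Nat.log_mono_right (by omega)⟩, mem_filter.2 ⟨mem_Ioc.2 ⟨by omega, by omega⟩, hp2⟩⟩
  have hN1 : (1 : ℝ) ≤ N := by exact_mod_cast (by omega : 1 ≤ N)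
  have hlog := Real.log_nonneg hN1
  have hJ : (Nat.log 2 N : ℝ) ≤ 2 * Real.log N := by
    have h1 : ((2 ^ Nat.log 2 N : ℕ) : ℝ) ≤ N := by exact_mod_cast Nat.pow_log_le_self 2 (by omega)
    have h2 := Real.log_le_log (by positivity) h1
    push_cast at h2
    rw [Real.log_pow] at h2
    have h3 := Real.log_two_gt_d9
    have h4 : (0 : ℝ) ≤ Nat.log 2 N := Nat.cast_nonneg _
    nlinarith
  have h1 := (Nat.cast_le (α := ℝ)).2 ((card_le_card hsub).trans card_biUnion_le)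
  push_cast at h1
  refine h1.trans ((sum_le_card_nsmul _ _ (C * (N * Real.log N / (l : ℝ) ^ 2 +
    (l : ℝ) ^ 2 * (N : ℝ) ^ (1 - δ))) fun j hj => ?_).trans ?_)
  · obtain ⟨j1, j2⟩ := mem_Icc.1 hj
    have b1 : 2 ≤ 2 ^ j := by simpa using Nat.pow_le_pow_right (by norm_num : 0 < 2) j1
    have b2 : 2 ^ j ≤ N := (Nat.pow_le_pow_right (by norm_num) j2).trans
      (Nat.pow_log_le_self 2 (by omega))
    have b3 : ((2 ^ j : ℕ) : ℝ) ≤ N := by exact_mod_cast b2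
    have b4 : (1 : ℝ) ≤ ((2 ^ j : ℕ) : ℝ) := by exact_mod_cast (by omega : 1 ≤ 2 ^ j)
    have b5 := Real.log_nonneg b4
    refine (h _ b1).trans (mul_le_mul_of_nonneg_left ?_ hC)
    have b6 : 0 ≤ 1 - δ := by linarith
    gcongr
  · rw [Nat.card_Icc, nsmul_eq_mul, Nat.add_sub_cancel]
    exact mul_le_mul_of_nonneg_right hJ (by positivity)

end Art

open Art Classical in
/-- the quantitative form -/
theorem artin_count (h1 : CLS) (h2 : PRIMES) (h3 : SPLIT) (a : ℤ) (ha1 : a ≠ -1)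
    (ha : ¬ IsSquare a) : ∃ C : ℕ, ∀ᶠ X : ℕ in atTop, (X : ℝ) / Real.log X ^ C ≤
      (((range (X + 1)).filter fun p : ℕ =>
        p.Prime ∧ ¬ (p : ℤ) ∣ a ∧ orderOf (a : ZMod p) = p - 1).card : ℝ) := by
  have ha2 : 2 ≤ |a| := by
    have b0 : a ≠ 0 := by rintro rfl; exact ha IsSquare.zero
    have b1 : a ≠ 1 := by rintro rfl; exact ha IsSquare.one
    rcases abs_cases a with h | h <;> omega
  obtain ⟨c, u, v, hc, hv, hu, hcu, hcls⟩ := h1 a ha1 ha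
  obtain ⟨C', δ', hδ', hS''⟩ := h3 a ha2
  obtain ⟨C, hC0, hCC⟩ : ∃ C : ℝ, 0 ≤ C ∧ C' ≤ C := ⟨max C' 0, le_max_right _ _, le_max_left _ _⟩
  obtain ⟨δ, hδ, hδ1, hδ2⟩ : ∃ δ : ℝ, 0 < δ ∧ δ ≤ 1 ∧ δ ≤ δ' :=
    ⟨min 1 δ', lt_min one_pos hδ', min_le_left _ _, min_le_right _ _⟩
  have hS' : ∀ l : ℕ, l.Prime → |a| < l → ∀ X : ℕ, 2 ≤ X →
      (((Ioc X (2 * X)).filter (Bad a l)).card : ℝ) ≤
        C * (X * Real.log X / (l : ℝ) ^ 2 + (l : ℝ) ^ 2 * (X : ℝ) ^ (1 - δ)) := by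
    intro l b1 b2 X hX
    have b3 : (1 : ℝ) ≤ X := by exact_mod_cast (by omega : 1 ≤ X)
    have b4 := Real.log_nonneg b3
    refine (hS'' l b1 b2 X hX).trans ((mul_le_mul_of_nonneg_right hCC (by positivity)).trans
      (mul_le_mul_of_nonneg_left ?_ hC0))
    have b5 : 1 - δ' ≤ 1 - δ := by linarith
    gcongr
  obtain ⟨C0, hP⟩ := h2 c u v (by omega) (by rcases hc with rfl | rfl <;> decide) hv hu hcu
    (δ / 4) (by positivity)
  refine ⟨C0 + 1, ?_⟩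
  have hLL : Tendsto (fun X : ℕ => Real.exp (Real.log (Real.log X) ^ 2)) atTop atTop :=
    Real.tendsto_exp_atTop.comp ((tendsto_pow_atTop two_ne_zero).comp
      (Real.tendsto_log_atTop.comp tendsto_logN))
  filter_upwards [hP, ev1 (4 * C) (C0 + 2) (by norm_num : (0 : ℝ) < 1 / 6),
    ev2 (2 * C) (C0 + 1) (by positivity : 0 < δ / 4) (by norm_num : (0 : ℝ) < 1 / 6),
    ev2 (16 * a.natAbs) C0 (by norm_num : (0 : ℝ) < 4 / 5) (by norm_num : (0 : ℝ) < 1 / 6),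
    tendsto_logN.eventually_ge_atTop 2, eventually_ge_atTop 2,
    hLL.eventually_gt_atTop ((|a| : ℤ) : ℝ)] with X e0 e1 e2 e3 e4 e5 e6
  have hX : (0 : ℝ) < X := by exact_mod_cast (by omega : 0 < X)
  set y := Real.log X with hy
  have hy0 : 0 < y := by linarith
  have hyC : 0 < y ^ C0 := pow_pos hy0 _
  set L0 := Real.exp (Real.log y ^ 2) with hL0
  set L1 := (X : ℝ) ^ (δ / 4) with hL1
  have hL1pos : 0 < L1 := Real.rpow_pos_of_pos hX _
  have ha2' : (2 : ℝ) ≤ ((|a| : ℤ) : ℝ) := by exact_mod_cast ha2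
  have hsub : (range (X + 1)).filter (Nice c u v (δ / 4) X) ⊆
      ((range (X + 1)).filter fun p : ℕ =>
        p.Prime ∧ ¬ (p : ℤ) ∣ a ∧ orderOf (a : ZMod p) = p - 1) ∪
        ((win (δ / 4) X).biUnion (fun l => (range (X + 1)).filter (Bad a l)) ∪
          smallOrd a ⌊4 * (X : ℝ) ^ (1 / 10 : ℝ)⌋₊) := by
    intro p hp
    obtain ⟨hp1, hp2⟩ := mem_filter.1 hp
    rcases nice_cases ha2 hc hcls hp2 with h | ⟨l, hl, h⟩ | h
    · exact mem_union_left _ (mem_filter.2 ⟨hp1, h⟩)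
    · exact mem_union_right _ (mem_union_left _ (mem_biUnion.2 ⟨l, hl, mem_filter.2 ⟨hp1, h⟩⟩))
    · exact mem_union_right _ (mem_union_right _ h)
  have hcard := (card_le_card hsub).trans ((card_union_le _ _).trans
    (Nat.add_le_add_left ((card_union_le _ _).trans
      (Nat.add_le_add card_biUnion_le (card_smallOrd ha2 _))) _))
  have hcard' := (Nat.cast_le (α := ℝ)).2 hcard
  push_cast at hcard'
  have hXδ : 0 ≤ (X : ℝ) ^ (1 - δ) := Real.rpow_nonneg hX.le _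
  have hbad : ∑ l ∈ win (δ / 4) X, (((range (X + 1)).filter (Bad a l)).card : ℝ) ≤
      2 * y * C * (X * y * (2 / L0) + L1 ^ 3 * (X : ℝ) ^ (1 - δ)) := by
    have s1 : ∀ l ∈ win (δ / 4) X, (((range (X + 1)).filter (Bad a l)).card : ℝ) ≤
        2 * y * C * (X * y * (1 / (l : ℝ) ^ 2) + L1 ^ 2 * (X : ℝ) ^ (1 - δ)) := by
      intro l hl
      obtain ⟨hl1, hl2⟩ := mem_filter.1 hl
      obtain ⟨hl3, hl4⟩ := mem_Icc.1 hl1
      have b1 : L0 ≤ l := Nat.ceil_le.1 hl3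
      have b2 : (l : ℝ) ≤ L1 := (Nat.le_floor_iff hL1pos.le).1 hl4
      have b3 : |a| < l := by exact_mod_cast e6.trans_le b1
      refine (bad_range hl2 hC0 hδ1 (hS' l hl2 b3) e5).trans ?_
      rw [← mul_assoc, mul_one_div]
      gcongr
    refine (sum_le_sum s1).trans ?_
    rw [← mul_sum, sum_add_distrib, ← mul_sum, sum_const, nsmul_eq_mul]
    refine mul_le_mul_of_nonneg_left (add_le_add ?_ ?_) (by positivity)
    · refine mul_le_mul_of_nonneg_left ?_ (by positivity)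
      refine le_trans (sum_le_sum_of_subset_of_nonneg (filter_subset _ _)
        fun l _ _ => by positivity) (sum_inv_sq_win (by linarith) _)
    · have b1 : ((win (δ / 4) X).card : ℝ) ≤ L1 := by
        have b2 : (win (δ / 4) X).card ≤ ⌊L1⌋₊ := by
          refine (card_filter_le _ _).trans ?_
          rw [Nat.card_Icc]
          have : 0 < ⌈L0⌉₊ := Nat.ceil_pos.2 (by linarith)
          change ⌊L1⌋₊ + 1 - ⌈L0⌉₊ ≤ _
          omega
        exact ((Nat.cast_le (α := ℝ)).2 b2).trans (Nat.floor_le hL1pos.le)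
      calc ((win (δ / 4) X).card : ℝ) * (L1 ^ 2 * (X : ℝ) ^ (1 - δ))
          ≤ L1 * (L1 ^ 2 * (X : ℝ) ^ (1 - δ)) := by gcongr
        _ = _ := by ring
  have hK : ((⌊4 * (X : ℝ) ^ (1 / 10 : ℝ)⌋₊ : ℕ) : ℝ) ≤ 4 * (X : ℝ) ^ (1 / 10 : ℝ) :=
    Nat.floor_le (by positivity)
  have hsm : ((⌊4 * (X : ℝ) ^ (1 / 10 : ℝ)⌋₊ : ℕ) : ℝ) *
      ((a.natAbs : ℝ) * (⌊4 * (X : ℝ) ^ (1 / 10 : ℝ)⌋₊ : ℕ)) ≤
      16 * a.natAbs * (X * (X : ℝ) ^ (-(4 / 5) : ℝ)) := by
    have b1 : (X : ℝ) ^ (1 / 10 : ℝ) * (X : ℝ) ^ (1 / 10 : ℝ) = X * (X : ℝ) ^ (-(4 / 5) : ℝ) := by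
      rw [← Real.rpow_add hX, ← Real.rpow_one_add' hX.le (by norm_num)]
      norm_num
    rw [← b1]
    calc _ ≤ (4 * (X : ℝ) ^ (1 / 10 : ℝ)) * ((a.natAbs : ℝ) * (4 * (X : ℝ) ^ (1 / 10 : ℝ))) := by
          gcongr
      _ = _ := by ring
  have t1 : 2 * y * C * (X * y * (2 / L0)) ≤ X / y ^ C0 * (1 / 6) := by
    have b1 : 2 * y * C * (X * y * (2 / L0)) =
        X / y ^ C0 * (4 * C * (y ^ (C0 + 2) * Real.exp (-Real.log y ^ 2))) := by
      rw [Real.exp_neg, ← hL0]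
      have : L0 ≠ 0 := by linarith
      field_simp
      ring
    rw [b1]
    exact mul_le_mul_of_nonneg_left e1 (by positivity)
  have t2 : 2 * y * C * (L1 ^ 3 * (X : ℝ) ^ (1 - δ)) ≤ X / y ^ C0 * (1 / 6) := by
    have b1 : 2 * y * C * (L1 ^ 3 * (X : ℝ) ^ (1 - δ)) =
        X / y ^ C0 * (2 * C * (y ^ (C0 + 1) * (X : ℝ) ^ (-(δ / 4)))) := by
      have b2 : L1 ^ 3 * (X : ℝ) ^ (1 - δ) = X * (X : ℝ) ^ (-(δ / 4)) := by
        rw [hL1, ← Real.rpow_mul_natCast hX.le, ← Real.rpow_add hX,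
          ← Real.rpow_one_add' hX.le (by linarith)]
        congr 1
        push_cast
        ring
      rw [b2]
      field_simp
      ring
    rw [b1]
    exact mul_le_mul_of_nonneg_left e2 (by positivity)
  have t3 : 16 * (a.natAbs : ℝ) * (X * (X : ℝ) ^ (-(4 / 5) : ℝ)) ≤ X / y ^ C0 * (1 / 6) := by
    have b1 : 16 * (a.natAbs : ℝ) * (X * (X : ℝ) ^ (-(4 / 5) : ℝ)) = X / y ^ C0 * (16 * a.natAbs *
        (y ^ C0 * (X : ℝ) ^ (-(4 / 5) : ℝ))) := by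
      field_simp
    rw [b1]
    exact mul_le_mul_of_nonneg_left e3 (by positivity)
  have t4 : (X : ℝ) / y ^ (C0 + 1) ≤ X / y ^ C0 * (1 / 2) := by
    rw [pow_succ, ← div_div, div_eq_mul_one_div ((X : ℝ) / y ^ C0) y]
    exact mul_le_mul_of_nonneg_left (one_div_le_one_div_of_le (by norm_num) e4) (by positivity)
  rw [mul_add] at hbad
  linarith

open Art Classical in
theorem artin_of (h1 : CLS) (h2 : PRIMES) (h3 : SPLIT) : ARTIN := by
  intro a ha1 ha hfin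
  obtain ⟨C, hC⟩ := artin_count h1 h2 h3 a ha1 ha
  obtain ⟨X, h4, h5, h6⟩ := (hC.and ((ev2 (hfin.toFinset.card : ℝ) C one_pos
    (by norm_num : (0 : ℝ) < 1 / 2)).and (eventually_ge_atTop 2))).exists
  have hX : (1 : ℝ) < X := by exact_mod_cast (by omega : 1 < X)
  have hpos : (0 : ℝ) < Real.log X ^ C := pow_pos (Real.log_pos hX) _
  have h7 : ((range (X + 1)).filter fun p : ℕ =>
      p.Prime ∧ ¬ (p : ℤ) ∣ a ∧ orderOf (a : ZMod p) = p - 1).card ≤ hfin.toFinset.card :=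
    card_le_card fun p hp => hfin.mem_toFinset.2 (mem_filter.1 hp).2
  have h8 := h4.trans ((Nat.cast_le (α := ℝ)).2 h7)
  rw [div_le_iff₀ hpos] at h8
  rw [Real.rpow_neg_one, ← mul_assoc, ← div_eq_mul_inv, div_le_iff₀ (by linarith)] at h5
  linarith

end Vale.Agent.P016Z
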