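import Mathlib.NumberTheory.LegendreSymbol.JacobiSymbol
import Mathlib.Data.Nat.Squarefree
import Vale.Agent.P016Z.Iface

/-!
P016: a class of primes modulo which `a` is not a square.
-/

open NumberTheorySymbols

namespace Vale.Agent.P016Z

namespace Cls

/-- `t` and `t - 1` are prime to `m` -/
def Gd (m t : ℕ) : Prop := ∀ p : ℕ, p.Prime → p ∣ m → ¬ p ∣ t ∧ ¬ t ≡ 1 [MOD p]

theorem gd_two {m : ℕ} (hm : Odd m) : Gd m 2 := by
  intro p hp hpm
  refine ⟨fun h => ?_, fun h => ?_⟩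
  · have := (Nat.prime_dvd_prime_iff_eq hp Nat.prime_two).1 h
    subst this
    exact (Nat.not_even_iff_odd.2 hm) (even_iff_two_dvd.2 hpm)
  · have := (Nat.modEq_iff_dvd' (by norm_num : 1 ≤ 2)).1 h.symm
    exact hp.one_lt.ne' (Nat.dvd_one.1 this)

theorem Gd.congr {m t n : ℕ} (h : Gd m t) (e : n ≡ t [MOD m]) : Gd m n := by
  intro p hp hpm
  have e' := e.of_dvd hpm
  exact ⟨fun hd => (h p hp hpm).1 ((e'.dvd_iff (dvd_refl p)).1 hd),
    fun hd => (h p hp hpm).2 (e'.symm.trans hd)⟩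

theorem jac_congr {m t n : ℕ} (e : n ≡ t [MOD m]) : J((n : ℤ) | m) = J((t : ℤ) | m) :=
  jacobiSym.mod_left' (by exact_mod_cast e)

theorem Gd.gcd {m t s : ℕ} (h : Gd m t) (hs : s ∣ m) : (t : ℤ).gcd s = 1 := by
  rw [Int.gcd_natCast_natCast]
  by_contra hc
  obtain ⟨p, hp, h1, h2⟩ := Nat.Prime.not_coprime_iff_dvd.1 hc
  exact (h p hp (h2.trans hs)).1 h1

theorem exists_res {q : ℕ} (hq : q.Prime) (h5 : 5 ≤ q) {η : ℤ} (hη : η = 1 ∨ η = -1) :
    ∃ t : ℕ, ¬ q ∣ t ∧ ¬ t ≡ 1 [MOD q] ∧ J((t : ℤ) | q) = η := by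
  have hodd : Odd q := hq.odd_of_ne_two (by omega)
  rcases hη with rfl | rfl
  · refine ⟨4, fun h => ?_, fun h => ?_, jacobiSym.at_four hodd⟩
    · have := Nat.le_of_dvd (by norm_num) h; omega
    · have := Nat.le_of_dvd (by norm_num) ((Nat.modEq_iff_dvd' (by norm_num : 1 ≤ 4)).1 h.symm)
      omega
  · have := Fact.mk hq
    obtain ⟨x, hx⟩ := FiniteField.exists_nonsquare (F := ZMod q)
      (by rw [ZMod.ringChar_zmod_n]; omega)
    have hJ : J((x.val : ℤ) | q) = -1 := by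
      rw [ZMod.nonsquare_iff_jacobiSym_eq_neg_one]
      simpa using hx
    refine ⟨x.val, fun h => ?_, fun h => ?_, hJ⟩
    · have h0 : x.val ≡ 0 [MOD q] := (Nat.modEq_zero_iff_dvd).2 h
      rw [jac_congr h0, Nat.cast_zero, jacobiSym.zero_left hq.one_lt] at hJ
      norm_num at hJ
    · rw [jac_congr h, Nat.cast_one, jacobiSym.one_left] at hJ
      norm_num at hJ

theorem exists_t {s d : ℕ} (hm : Odd (s ^ 2 * d)) (hd : Squarefree d) (h1 : d ≠ 1) (h3 : d ≠ 3)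
    {η : ℤ} (hη : η = 1 ∨ η = -1) :
    ∃ t : ℕ, Gd (s ^ 2 * d) t ∧ J((t : ℤ) | s ^ 2 * d) = η := by
  have hm0 : s ^ 2 * d ≠ 0 := hm.pos.ne'
  have hdo : Odd d := (Nat.odd_mul.1 hm).2
  obtain ⟨q, hq, h5, hqd⟩ : ∃ q : ℕ, q.Prime ∧ 5 ≤ q ∧ q ∣ d := by
    by_contra hc
    push Not at hc
    have key : ∀ p : ℕ, p.Prime → p ∣ d → p = 3 := by
      intro p hp hpd
      have a1 : ¬ 5 ≤ p := fun h => hc p hp h hpd
      have a2 := hp.two_le
      have a3 : p ≠ 2 := by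
        rintro rfl
        exact (Nat.not_even_iff_odd.2 hdo) (even_iff_two_dvd.2 hpd)
      have a4 : p ≠ 4 := by
        rintro rfl
        exact absurd hp (by decide)
      omega
    obtain ⟨p, hp, hpd⟩ := Nat.exists_prime_and_dvd h1
    obtain rfl := key p hp hpd
    obtain ⟨k, rfl⟩ := hpd
    have hk : k ≠ 1 := by rintro rfl; exact h3 rfl
    obtain ⟨p, hp, hpk⟩ := Nat.exists_prime_and_dvd hk
    obtain rfl := key p hp (hpk.mul_left 3)
    exact absurd (Nat.isUnit_iff.1 (hd 3 (Nat.mul_dvd_mul_left 3 hpk))) (by norm_num)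
  obtain ⟨d', rfl⟩ := hqd
  have hqd' : ¬ q ∣ d' := fun h =>
    hq.one_lt.ne' (Nat.isUnit_iff.1 (hd q (Nat.mul_dvd_mul_left q h)))
  obtain ⟨k, m', hm', e⟩ := Nat.exists_eq_pow_mul_and_not_dvd hm0 q hq.ne_one
  have hcop : Nat.Coprime q m' := (Nat.Prime.coprime_iff_not_dvd hq).2 hm'
  have hm'o : Odd m' := by rw [e] at hm; exact (Nat.odd_mul.1 hm).2
  have hd'm : d' ∣ m' := by
    have h : d' ∣ q ^ k * m' := e ▸ (Dvd.intro_left q rfl).mul_left _
    exact (Nat.Coprime.pow_right k ((Nat.Prime.coprime_iff_not_dvd hq).2 hqd').symm).dvd_of_dvd_mul_left h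
  have hj : J((2 : ℕ) | d') = 1 ∨ J((2 : ℕ) | d') = -1 :=
    jacobiSym.eq_one_or_neg_one ((gd_two hm'o).gcd hd'm)
  obtain ⟨t0, a1, a2, a3⟩ := exists_res hq h5 (η := η * J((2 : ℕ) | d')) (by
    rcases hη with rfl | rfl <;> rcases hj with h | h <;> rw [h] <;> norm_num)
  obtain ⟨t, b1, b2⟩ := Nat.chineseRemainder hcop t0 2
  have hg : Gd (s ^ 2 * (q * d')) t := by
    intro p hp hpm
    rw [e] at hpm
    rcases (Nat.Prime.dvd_mul hp).1 hpm with h | h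
    · obtain rfl := (Nat.prime_dvd_prime_iff_eq hp hq).1 (hp.dvd_of_dvd_pow h)
      exact ⟨fun hd => a1 ((b1.dvd_iff (dvd_refl p)).1 hd), fun hd => a2 (b1.symm.trans hd)⟩
    · exact ((gd_two hm'o).congr b2) p hp h
  refine ⟨t, hg, ?_⟩
  have hs0 : s ^ 2 ≠ 0 := left_ne_zero_of_mul hm0
  have hd0 : d' ≠ 0 := hm'o.pos.ne' ∘ fun h => by simpa [h] using hd'm
  rw [jacobiSym.mul_right' _ hs0 (mul_ne_zero hq.ne_zero hd0),
    jacobiSym.mul_right' _ hq.ne_zero hd0, jacobiSym.pow_right,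
    jacobiSym.sq_one (hg.gcd ((dvd_pow_self s two_ne_zero).mul_right _)), jac_congr b1, a3,
    jac_congr (b2.of_dvd hd'm)]
  rcases hj with h | h <;> rw [h] <;> ring

theorem exists_n {m : ℕ} (hm : Odd m) (t r : ℕ) (hr : r < 8) :
    ∃ n : ℕ, n % 8 = r ∧ n ≡ t [MOD m] := by
  have hc : Nat.Coprime 8 m := by
    have : Nat.Coprime 2 m := Nat.coprime_two_left.2 hm
    exact Nat.Coprime.pow_left 3 this
  obtain ⟨n, h1, h2⟩ := Nat.chineseRemainder hc r t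
  exact ⟨n, by rw [h1, Nat.mod_eq_of_lt hr], h2⟩

theorem jac_split (σ : ℤ) (e m n : ℕ) :
    J(σ * (2 ^ e * m : ℕ) | n) = J(σ | n) * (J(2 | n) ^ e * J((m : ℤ) | n)) := by
  push_cast
  rw [jacobiSym.mul_left, jacobiSym.mul_left, jacobiSym.pow_left]

theorem jac_two {n : ℕ} (hn : Odd n) :
    J(2 | n) = if n % 8 = 1 ∨ n % 8 = 7 then 1 else -1 := by
  rw [jacobiSym.at_two hn, ZMod.χ₈_nat_eq_if_mod_eight, if_neg (by rw [Nat.odd_iff] at hn; omega)]

theorem jac_sign1 {σ : ℤ} (hσ : σ = 1 ∨ σ = -1) {n : ℕ} (hn : n % 4 = 1) : J(σ | n) = 1 := by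
  rcases hσ with rfl | rfl
  · exact jacobiSym.one_left n
  · rw [jacobiSym.at_neg_one (by rw [Nat.odd_iff]; omega), ZMod.χ₄_nat_one_mod_four hn]

theorem jac_sign3 {σ : ℤ} (hσ : σ = 1 ∨ σ = -1) {n : ℕ} (hn : n % 4 = 3) : J(σ | n) = σ := by
  rcases hσ with rfl | rfl
  · exact jacobiSym.one_left n
  · rw [jacobiSym.at_neg_one (by rw [Nat.odd_iff]; omega), ZMod.χ₄_nat_three_mod_four hn]

theorem val5 {σ : ℤ} (hσ : σ = 1 ∨ σ = -1) (e : ℕ) {m n : ℕ} (hm : Odd m) (hn : n % 8 = 5) :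
    J(σ * (2 ^ e * m : ℕ) | n) = (-1) ^ e * J((n : ℤ) | m) := by
  rw [jac_split, jac_sign1 hσ (by omega), jac_two (by rw [Nat.odd_iff]; omega),
    if_neg (by omega), jacobiSym.quadratic_reciprocity_one_mod_four' hm (by omega), one_mul]

theorem val3 {σ : ℤ} (hσ : σ = 1 ∨ σ = -1) (e : ℕ) {m n : ℕ} (hm : m % 4 = 3) (hn : n % 8 = 3) :
    J(σ * (2 ^ e * m : ℕ) | n) = σ * ((-1) ^ e * -J((n : ℤ) | m)) := by
  rw [jac_split, jac_sign3 hσ (by omega), jac_two (by rw [Nat.odd_iff]; omega),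
    if_neg (by omega), jacobiSym.quadratic_reciprocity_three_mod_four hm (by omega)]

theorem val7 {σ : ℤ} (hσ : σ = 1 ∨ σ = -1) (e : ℕ) {m n : ℕ} (hm : m % 4 = 3) (hn : n % 8 = 7) :
    J(σ * (2 ^ e * m : ℕ) | n) = σ * -J((n : ℤ) | m) := by
  rw [jac_split, jac_sign3 hσ (by omega), jac_two (by rw [Nat.odd_iff]; omega),
    if_pos (by omega), jacobiSym.quadratic_reciprocity_three_mod_four hm (by omega), one_pow,
    one_mul]

theorem val7' {σ : ℤ} (hσ : σ = 1 ∨ σ = -1) (e : ℕ) {m n : ℕ} (hm : m % 4 = 1) (hn : n % 8 = 7) :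
    J(σ * (2 ^ e * m : ℕ) | n) = σ * J((n : ℤ) | m) := by
  rw [jac_split, jac_sign3 hσ (by omega), jac_two (by rw [Nat.odd_iff]; omega),
    if_pos (by omega),
    jacobiSym.quadratic_reciprocity_one_mod_four hm (by rw [Nat.odd_iff]; omega), one_pow, one_mul]

theorem exists_good {σ : ℤ} (hσ : σ = 1 ∨ σ = -1) (e : ℕ) {m : ℕ} (hm : Odd m)
    (ha : ¬ IsSquare (σ * (2 ^ e * m : ℕ))) :
    ∃ n : ℕ, (n % 8 = 3 ∨ n % 8 = 5 ∨ n % 8 = 7) ∧ Gd m n ∧ J(σ * (2 ^ e * m : ℕ) | n) = -1 := by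
  obtain ⟨d, s, rfl, hd⟩ := Nat.sq_mul_squarefree m
  have hso : Odd s := by
    have := (Nat.odd_mul.1 hm).1
    rw [sq] at this
    exact (Nat.odd_mul.1 this).1
  have hs4 : s ^ 2 % 4 = 1 := by
    obtain ⟨k, rfl⟩ := hso
    have : (2 * k + 1) ^ 2 = 4 * (k ^ 2 + k) + 1 := by ring
    rw [this]; omega
  have hs0 : s ^ 2 ≠ 0 := by omega
  have hg := gd_two hm
  have hsq : J((2 : ℕ) | s ^ 2) = 1 := by
    rw [jacobiSym.pow_right,
      jacobiSym.sq_one (hg.gcd ((dvd_pow_self s two_ne_zero).mul_right _))]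
  obtain ⟨n3, a3, b3⟩ := exists_n hm 2 3 (by norm_num)
  obtain ⟨n5, a5, b5⟩ := exists_n hm 2 5 (by norm_num)
  obtain ⟨n7, a7, b7⟩ := exists_n hm 2 7 (by norm_num)
  by_cases h1 : d = 1
  · subst h1
    have hJ : J((2 : ℕ) | s ^ 2 * 1) = 1 := by rw [mul_one, hsq]
    rcases Nat.even_or_odd e with he | he
    · rcases hσ with rfl | rfl
      · exfalso
        obtain ⟨k, rfl⟩ := he
        exact ha ⟨2 ^ k * s, by push_cast; ring⟩
      · refine ⟨n7, by omega, hg.congr b7, ?_⟩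
        rw [val7' (Or.inr rfl) e (by omega) a7, jac_congr b7, hJ]; norm_num
    · refine ⟨n5, by omega, hg.congr b5, ?_⟩
      rw [val5 hσ e hm a5, jac_congr b5, hJ, he.neg_one_pow]; norm_num
  by_cases h3 : d = 3
  · subst h3
    have hJ : J((2 : ℕ) | s ^ 2 * 3) = -1 := by
      rw [jacobiSym.mul_right' _ hs0 (by norm_num), hsq, Nat.cast_ofNat,
        jac_two (by decide : Odd 3)]
      norm_num
    rcases Nat.even_or_odd e with he | he
    · refine ⟨n5, by omega, hg.congr b5, ?_⟩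
      rw [val5 hσ e hm a5, jac_congr b5, hJ, he.neg_one_pow]; norm_num
    · rcases hσ with rfl | rfl
      · refine ⟨n3, by omega, hg.congr b3, ?_⟩
        rw [val3 (Or.inl rfl) e (by omega) a3, jac_congr b3, hJ, he.neg_one_pow]; norm_num
      · refine ⟨n7, by omega, hg.congr b7, ?_⟩
        rw [val7 (Or.inr rfl) e (by omega) a7, jac_congr b7, hJ]; norm_num
  obtain ⟨t, c1, c2⟩ := exists_t hm hd h1 h3 (η := -(-1) ^ e) (by
    rcases neg_one_pow_eq_or ℤ e with h | h <;> rw [h] <;> norm_num)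
  obtain ⟨n, a, b⟩ := exists_n hm t 5 (by norm_num)
  refine ⟨n, by omega, c1.congr b, ?_⟩
  rw [val5 hσ e hm a, jac_congr b, c2]
  rcases neg_one_pow_eq_or ℤ e with h | h <;> rw [h] <;> norm_num

end Cls

open Cls in
theorem cls : CLS := by
  intro a _ ha
  have ha0 : a ≠ 0 := by rintro rfl; exact ha IsSquare.zero
  have hn0 : a.natAbs ≠ 0 := Int.natAbs_ne_zero.2 ha0
  obtain ⟨e, m, hm, hem⟩ := Nat.exists_eq_two_pow_mul_odd hn0
  obtain ⟨σ, hσ, hae⟩ : ∃ σ : ℤ, (σ = 1 ∨ σ = -1) ∧ a = σ * (2 ^ e * m : ℕ) := by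
    rw [← hem]
    rcases Int.natAbs_eq a with h | h
    · exact ⟨1, Or.inl rfl, by rw [one_mul]; exact h⟩
    · exact ⟨-1, Or.inr rfl, by rw [neg_one_mul]; exact h⟩
  obtain ⟨n, hn, hg, hJ⟩ := exists_good hσ e hm (hae ▸ ha)
  rw [← hae] at hJ
  obtain ⟨c, u, hc, hu, rfl⟩ : ∃ c u : ℕ, (c = 2 ∨ c = 4) ∧ u % 2 = 1 ∧ n = c * u + 1 := by
    by_cases h : n % 8 = 5
    · exact ⟨4, n / 4, Or.inr rfl, by omega, by omega⟩
    · exact ⟨2, n / 2, Or.inl rfl, by omega, by omega⟩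
  have hprime : ∀ p : ℕ, p.Prime → p ∣ 4 * a.natAbs → p = 2 ∨ p ∣ m := by
    intro p hp h
    rw [hem, show 4 * (2 ^ e * m) = 2 ^ (e + 2) * m by ring] at h
    rcases (Nat.Prime.dvd_mul hp).1 h with h | h
    · exact Or.inl ((Nat.prime_dvd_prime_iff_eq hp Nat.prime_two).1 (hp.dvd_of_dvd_pow h))
    · exact Or.inr h
  refine ⟨c, u, 4 * a.natAbs, hc, by omega, ?_, ?_, fun w hw hp => ?_⟩
  · by_contra hcon
    obtain ⟨p, hp, h1, h2⟩ := Nat.Prime.not_coprime_iff_dvd.1 hcon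
    rcases hprime p hp h2 with rfl | h
    · omega
    · refine (hg p hp h).2 ((Nat.modEq_iff_dvd' (by omega)).2 ?_).symm
      rw [Nat.add_sub_cancel]
      exact h1.mul_left c
  · by_contra hcon
    obtain ⟨p, hp, h1, h2⟩ := Nat.Prime.not_coprime_iff_dvd.1 hcon
    rcases hprime p hp h2 with rfl | h
    · rcases hc with rfl | rfl <;> omega
    · exact (hg p hp h).1 h1
  · have hmod : c * w + 1 ≡ c * u + 1 [MOD 4 * a.natAbs] :=
      (Nat.ModEq.mul_left c hw).add_right 1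
    have hJ' : J(a | c * w + 1) = -1 := by
      rw [jacobiSym.mod_right a (b := c * w + 1)
        (by rw [Nat.odd_iff]; rcases hc with rfl | rfl <;> omega), hmod,
        ← jacobiSym.mod_right a (by rw [Nat.odd_iff]; omega), hJ]
    have hns := ZMod.nonsquare_of_jacobiSym_eq_neg_one hJ'
    refine ⟨fun hd => hns ?_, hns⟩
    rw [(ZMod.intCast_zmod_eq_zero_iff_dvd a (c * w + 1)).2 hd]
    exact IsSquare.zero

end Vale.Agent.P016Z
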