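import Vale.Agent.P016Z.Pr.Main
import Vale.Agent.P016Z.Pois.Hecke
import Vale.Agent.P016Z.Cheb.MuInv
import Vale.Agent.P016Z.Cheb.NonVan
import Vale.Agent.P016Z.Cheb.Split
import Vale.Agent.P016Z.Cheb.Kum
import Vale.Agent.P016Z.Cheb.Cheb
import Vale.Agent.P016Z.Fin.Cls
import Vale.Agent.P016Z.Fin.Artin

/-!
P016: everything except block II, assembled.
-/

namespace Vale.Agent.P016Z

theorem split_of_nonvan {θ : ℝ} (h1 : 3 / 4 ≤ θ) (h2 : θ < 1) (h : NONVAN θ) : SPLIT :=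
  split_of (cheb h1 h2 hcont hbd expLog h) kum

theorem split_of_mub {θ : ℝ} (h1 : 3 / 4 ≤ θ) (h2 : θ < 1) (h : MUB θ) : SPLIT :=
  split_of_nonvan h1 h2 (nonVan h1 h2 hcont expLog muInv spl12 h)

theorem artin_of_mub {θ : ℝ} (h1 : 3 / 4 ≤ θ) (h2 : θ < 1) (h : MUB θ) : ARTIN :=
  artin_of cls primes (split_of_mub h1 h2 h)

end Vale.Agent.P016Z
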