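import Vale.Agent.P016Z.Base.Nrm
import Vale.Agent.P016Z.Iface
import Vale.Agent.P016Z.Ab.End

/-!
P016: from Moebius sums over generators to Moebius sums over the ideals prime to `Q`.
-/

open NumberField

set_option linter.unusedSectionVars false

namespace Vale.Agent.P016Z

variable {K : Type} [Field K] [NumberField K] [Dat K]

theorem idl_one : idl (1 : R K) = ⊤ := by
  rw [idl, Ideal.span_singleton_one, Ideal.comap_top]

theorem idl_mul {x y : R K} (hx : x ≠ 0) (hy : y ≠ 0) : idl (x * y) = idl x * idl y := by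
  have h1 : idl x * idl y ≤ idl (x * y) := by
    rw [idl, idl, idl, ← Ideal.span_singleton_mul_span_singleton]
    exact Ideal.le_comap_mul _
  obtain ⟨J, hJ⟩ := Ideal.dvd_iff_le.2 h1
  have h2 := congrArg Ideal.absNorm hJ
  rw [map_mul, map_mul, ← Nr_eq_absNorm hx, ← Nr_eq_absNorm hy,
    ← Nr_eq_absNorm (mul_ne_zero hx hy), Nr_mul] at h2
  have h3 : Ideal.absNorm J = 1 := by
    refine mul_left_cancel₀ (mul_ne_zero (Nr_ne_zero hx) (Nr_ne_zero hy)) ?_
    rw [mul_one, ← h2]
  rw [hJ, Ideal.absNorm_eq_one_iff.1 h3, Ideal.mul_top]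

theorem idl_dvd_iff {x y : R K} : idl x ∣ idl y ↔ x ∣ y := by
  rw [Ideal.dvd_iff_le]
  constructor
  · intro h
    obtain ⟨k, hk⟩ := mem_R.1 y.2
    let z : 𝓞 K := ⟨_, hk⟩
    have e : toR z = (Q K : R K) ^ k * y := Subtype.ext (by push_cast; rfl)
    have h1 : z ∈ idl y := by rw [mem_idl, e]; exact dvd_mul_left _ _
    have h2 := mem_idl.1 (h h1)
    rw [e] at h2
    exact ((isUnit_Q.pow k).dvd_mul_left).1 h2
  · intro h a ha
    rw [mem_idl] at ha ⊢
    exact h.trans ha

theorem prime_idl {p : R K} (hp : Prime p) : Prime (idl p) := by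
  have : (Ideal.span {p}).IsPrime := (Ideal.span_singleton_prime hp.ne_zero).2 hp
  exact Ideal.prime_of_isPrime (idl_ne_bot hp.ne_zero) (Ideal.IsPrime.comap _)

theorem exists_idl_eq {I : Ideal (𝓞 K)} (hI : (Ideal.absNorm I).Coprime (Q K)) :
    ∃ x : R K, x ≠ 0 ∧ idl x = I := by
  have := isLocalization_Loc (K := K) (zero_notMem_powers K)
  obtain ⟨x, hx⟩ := (IsPrincipalIdealRing.principal (I.map toR)).principal
  have hx' : I.map toR = Ideal.span {x} := hx
  have h1 : idl x = I := by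
    rw [idl, ← hx']
    refine le_antisymm (fun y hy => ?_) Ideal.le_comap_map
    rw [Ideal.mem_comap, IsLocalization.mem_map_algebraMap_iff
      ((Submonoid.powers (Q K)).map (Nat.castRingHom (𝓞 K)))] at hy
    obtain ⟨⟨a, s, m, ⟨k, rfl⟩, rfl⟩, h⟩ := hy
    have h2 : y * ((Q K ^ k : ℕ) : 𝓞 K) = a := by
      refine RingOfIntegers.ext ?_
      exact congrArg (fun t : R K => (t : K)) h
    obtain ⟨u, v, huv⟩ := Nat.isCoprime_iff_coprime.2 (hI.pow_right k)
    have h3 : ((u * (Ideal.absNorm I : ℕ) + v * (Q K ^ k : ℕ) : ℤ) : 𝓞 K) = 1 := by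
      rw [huv]; simp
    have h4 : y = (u * y) * (Ideal.absNorm I : 𝓞 K) + v * (y * ((Q K ^ k : ℕ) : 𝓞 K)) := by
      push_cast at h3 ⊢
      linear_combination (-y) * h3
    rw [h4, h2]
    exact I.add_mem (I.mul_mem_left _ (Ideal.absNorm_mem I)) (I.mul_mem_left _ a.2)
  refine ⟨x, ?_, h1⟩
  rintro rfl
  have h5 : I = ⊥ := by
    rw [← h1, eq_bot_iff]
    intro y hy
    rw [mem_idl, zero_dvd_iff] at hy
    exact RingOfIntegers.ext (congrArg (fun t : R K => (t : K)) hy)
  rw [h5, Ideal.absNorm_bot] at hI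
  exact zero_notMem_copT K hI

theorem squarefree_idl {x : R K} (hx : x ≠ 0) : Squarefree (idl x) ↔ Squarefree x := by
  constructor
  · intro h a ha
    have a0 : a ≠ 0 := by rintro rfl; exact hx (by simpa using ha)
    have h1 := h (idl a) (by rw [← idl_mul a0 a0]; exact idl_dvd_iff.2 ha)
    rw [isUnit_iff_dvd_one] at h1 ⊢
    rw [← idl_dvd_iff, idl_one, ← Ideal.one_eq_top]
    exact h1
  · intro h I hI
    have h1 : (Ideal.absNorm I).Coprime (Q K) := by
      refine Nat.Coprime.coprime_dvd_left ?_ (Nr_coprime hx)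
      rw [Nr_eq_absNorm hx]
      exact map_dvd _ ((dvd_mul_right I I).trans hI)
    obtain ⟨a, a0, rfl⟩ := exists_idl_eq h1
    rw [← idl_mul a0 a0, idl_dvd_iff] at hI
    have h2 := h a hI
    rw [isUnit_iff_dvd_one] at h2 ⊢
    rw [← idl_dvd_iff, idl_one, ← Ideal.one_eq_top] at h2
    exact h2

theorem card_factors_idl {x : R K} (hx : x ≠ 0) :
    (UniqueFactorizationMonoid.normalizedFactors (idl x)).card =
      (UniqueFactorizationMonoid.factors x).card := by
  classical
  revert hx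
  refine UniqueFactorizationMonoid.induction_on_prime x (fun h => absurd rfl h) ?_ ?_
  · intro u hu _
    have h1 : idl u = 1 := by
      rw [idl, Ideal.span_singleton_eq_top.2 hu, Ideal.comap_top, Ideal.one_eq_top]
    rw [h1, UniqueFactorizationMonoid.normalizedFactors_one,
      UniqueFactorizationMonoid.factors_of_isUnit hu]
    rfl
  · intro a p ha hp ih _
    rw [idl_mul hp.ne_zero ha, UniqueFactorizationMonoid.normalizedFactors_mul
      (idl_ne_bot hp.ne_zero) (idl_ne_bot ha), Multiset.card_add, ih ha,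
      UniqueFactorizationMonoid.normalizedFactors_irreducible (prime_idl hp).irreducible,
      Multiset.card_eq_card_of_rel (UniqueFactorizationMonoid.factors_mul hp.ne_zero ha),
      Multiset.card_add,
      Multiset.card_eq_card_of_rel (UniqueFactorizationMonoid.factors_rel_of_associated
        (Associated.refl p)), UniqueFactorizationMonoid.card_factors_of_irreducible hp.irreducible]
    rfl

section transfer

variable {M : Type} [CommMonoidWithZero M] [UniqueFactorizationMonoid M] [Ab.Ar M]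

/-- a quotient of the multiplicative monoid of `R` by a group of units -/
structure IsQuot (mk : R K →* M) : Prop where
  surj : Function.Surjective mk
  dvd_iff : ∀ x y : R K, mk x ∣ mk y ↔ x ∣ y
  zero : mk 0 = 0
  N_mk : ∀ x : R K, Ab.N (mk x) = Nr x
  assoc : ∀ x : M, x ≠ 0 → ∃ y : M, Ab.Prim y ∧ Associated x y

namespace IsQuot

variable {mk : R K →* M} (h : IsQuot mk)
include h

theorem eq_zero_iff {x : R K} : mk x = 0 ↔ x = 0 := by
  rw [← zero_dvd_iff, ← h.zero, h.dvd_iff, zero_dvd_iff]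

theorem isUnit_iff {x : R K} : IsUnit (mk x) ↔ IsUnit x := by
  rw [isUnit_iff_dvd_one, isUnit_iff_dvd_one, ← h.dvd_iff, map_one]

theorem squarefree_iff {x : R K} : Squarefree (mk x) ↔ Squarefree x := by
  constructor
  · intro h1 a ha
    exact h.isUnit_iff.1 (h1 (mk a) (by rw [← map_mul]; exact (h.dvd_iff _ _).2 ha))
  · intro h1 a ha
    obtain ⟨a, rfl⟩ := h.surj a
    rw [← map_mul, h.dvd_iff] at ha
    exact h.isUnit_iff.2 (h1 a ha)

theorem prime {p : R K} (hp : Prime p) : Prime (mk p) := by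
  refine ⟨fun h1 => hp.ne_zero (h.eq_zero_iff.1 h1), fun h1 => hp.not_isUnit (h.isUnit_iff.1 h1),
    fun a b hab => ?_⟩
  obtain ⟨a, rfl⟩ := h.surj a
  obtain ⟨b, rfl⟩ := h.surj b
  rw [← map_mul, h.dvd_iff] at hab
  rw [h.dvd_iff, h.dvd_iff]
  exact hp.dvd_or_dvd hab

theorem isRelPrime_iff {x y : R K} : IsRelPrime (mk x) (mk y) ↔ IsCoprime x y := by
  rw [← isRelPrime_iff_isCoprime]
  constructor
  · intro h1 d hx hy
    exact h.isUnit_iff.1 (h1 ((h.dvd_iff _ _).2 hx) ((h.dvd_iff _ _).2 hy))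
  · intro h1 d hx hy
    obtain ⟨d, rfl⟩ := h.surj d
    exact h.isUnit_iff.2 (h1 ((h.dvd_iff _ _).1 hx) ((h.dvd_iff _ _).1 hy))

theorem mob_mk {x : R K} (hx : x ≠ 0) :
    Ab.mob (mk x) = (-1) ^ (UniqueFactorizationMonoid.factors x).card := by
  revert hx
  refine UniqueFactorizationMonoid.induction_on_prime x (fun h => absurd rfl h) ?_ ?_
  · intro u hu _
    rw [Ab.mob, UniqueFactorizationMonoid.factors_of_isUnit hu,
      UniqueFactorizationMonoid.factors_of_isUnit (h.isUnit_iff.2 hu)]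
    rfl
  · intro a p ha hp ih _
    rw [map_mul, Ab.mob_mul (h.prime hp) (fun h1 => ha (h.eq_zero_iff.1 h1)), ih ha,
      Multiset.card_eq_card_of_rel (UniqueFactorizationMonoid.factors_mul hp.ne_zero ha),
      Multiset.card_add, UniqueFactorizationMonoid.card_factors_of_irreducible hp.irreducible,
      pow_add]
    ring

/-- the Moebius sum over generators is the Moebius sum over the ideals prime to `Q` -/
theorem Msum_eq [Ab.Sc M] (W : ℝ → ℂ) (X : ℝ) :
    Ab.Msum M W X = ∑' I : Ideal (𝓞 K), if (Ideal.absNorm I).Coprime (Q K) then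
      moebI I * W ((Ideal.absNorm I : ℝ) / X) else 0 := by
  classical
  choose r hr using h.surj
  have r0 : ∀ n : M, n ≠ 0 → r n ≠ 0 := fun n hn h1 => hn (by rw [← hr n, h1, h.zero])
  have key : ∀ n : M, Ab.Prim n → (if (Ideal.absNorm (idl (r n))).Coprime (Q K) then
      moebI (idl (r n)) * W ((Ideal.absNorm (idl (r n)) : ℝ) / X) else 0) =
      if Ab.Sq n then Ab.mob n * W (Ab.N n / X) else 0 := by
    intro n hn
    have h0 := r0 n hn.ne_zero
    rw [← Nr_eq_absNorm h0, if_pos (Nr_coprime h0), moebI, ← h.N_mk, hr]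
    by_cases hs : Squarefree n
    · rw [if_pos ((squarefree_idl h0).2 (h.squarefree_iff.1 (by rwa [hr]))), if_pos ⟨hn, hs⟩,
        card_factors_idl h0, ← h.mob_mk h0, hr]
    · rw [if_neg fun h1 => hs (by rw [← hr n]; exact h.squarefree_iff.2 ((squarefree_idl h0).1 h1)),
        if_neg fun h1 => hs h1.2, zero_mul]
  symm
  rw [Ab.Msum]
  have hp : ∀ n : M, (if Ab.Sq n then Ab.mob n * W (Ab.N n / X) else 0) ≠ 0 → Ab.Prim n :=
    fun n hn => by
      by_contra h1
      exact hn (if_neg fun h2 => h1 h2.1)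
  refine tsum_eq_tsum_of_ne_zero_bij (fun n => idl (r n.1)) ?_ ?_ ?_
  · rintro ⟨n, hn⟩ ⟨m, hm⟩ e
    have pn := hp n hn
    have pm := hp m hm
    have e' : idl (r n) = idl (r m) := e
    refine Subtype.ext (pn.eq_of_associated pm (associated_of_dvd_dvd ?_ ?_))
    · change n ∣ m
      rw [← hr n, ← hr m, h.dvd_iff, ← idl_dvd_iff, e']
    · change m ∣ n
      rw [← hr n, ← hr m, h.dvd_iff, ← idl_dvd_iff, e']
  · intro I hI
    have h1 : (Ideal.absNorm I).Coprime (Q K) := by
      by_contra h1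
      exact hI (if_neg h1)
    obtain ⟨x, x0, rfl⟩ := exists_idl_eq h1
    obtain ⟨n, pn, hn⟩ := h.assoc (mk x) fun h2 => x0 (h.eq_zero_iff.1 h2)
    have e : idl (r n) = idl x := by
      refine associated_iff_eq.1 (associated_of_dvd_dvd ?_ ?_)
      · rw [idl_dvd_iff, ← h.dvd_iff, hr]; exact hn.symm.dvd
      · rw [idl_dvd_iff, ← h.dvd_iff, hr]; exact hn.dvd
    refine ⟨⟨n, ?_⟩, e⟩
    rw [Function.mem_support, ← key n pn, e]
    exact hI
  · rintro ⟨n, hn⟩
    exact key n (hp n hn)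

theorem muBound [Ab.Sc M] {θ : ℝ} (hM : Ab.MuB M θ) : MuBound K θ := by
  refine ⟨Q K, Q_ne K, fun W hW σ hσ => ?_⟩
  obtain ⟨C, hC⟩ := hM W hW σ hσ
  exact ⟨C, fun D hD => by rw [← h.Msum_eq]; exact hC D hD⟩

end IsQuot

end transfer

end Vale.Agent.P016Z
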